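import Vale.Agent.P122.H518.ChainS
import Vale.Agent.P127.U.FillB

/-!
# P122 / H265 : the step (S), abstract form on the tree of helper518 (helper265)
-/

set_option autoImplicit false

namespace Vale.Agent.P122.H265

open Filter Topology Finset Vale.Agent.P127 Vale.Agent.P127.U Vale.Agent.P127.U.Sys Vale.Agent.P122.H518

variable {S : Sys} {β κ τ σ ς : Type*} {K : ℕ} {N : ℕ → S.RV β} {Y : ℕ → S.RV κ} {T : ℕ → S.RV τ}
  {sg : ℕ → S.RV σ} {H J th : ℕ → ℝ}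

/-- `h(Y i | x, Y k) = M i - M k` -/
theorem hc_Yx (h : Cts S K N Y T sg H J th) {k i : ℕ} (hki : k ≤ i) (hi : i ≤ K) :
    S.hc (Y i) (Sys.pr (N 0) (Y k)) = ∑ c ∈ range i, J c - ∑ c ∈ range k, J c := by
  have t0 := h.tre.tN 0 (Nat.zero_le _)
  have ti := h.tre.tY hi
  have tk := h.tre.tY (hki.trans hi)
  have h1 := Cts.h_pair_eq ti (t0.pr tk)
  have h2 : S.h (Sys.pr (Y i) (Sys.pr (N 0) (Y k))) = S.h (Sys.pr (N 0) (Y i)) := by
    unfold Sys.h
    refine hc_congr ?_ ?_ (frf _) (frf _)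
    · exact ftr (fpr (fsnd _ _) (fpr (ffst _ _) (ftr (h.tre.YY' hki hi) (fsnd _ _)))) (ffst _ _)
    · exact ftr (fpr (ftr (ffst _ _) (fsnd _ _)) (ffst _ _)) (ffst _ _)
  rw [h2, h.h_flag hi, h.h_flag (hki.trans hi)] at h1
  linarith

/-- lower bound of the entropy of the node given a piece `sig` of it -/
theorem hc_N_sig (h : Cts S K N Y T sg H J th) {i j k : ℕ} (hij : i ≤ j) (hj : j ≤ K) (hk : k ≤ i)
    {sig : S.RV ς} (g1 : Sys.Fn sig (N i)) (g2 : S.hc sig (Sys.pr (T i) (N j)) = 0)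
    (g3 : S.hc sig (Sys.pr (N 0) (Y k)) = 0) :
    S.hc (Y i) sig + S.hc (N i) (Sys.pr (T i) (N j)) ≤ S.hc (N i) sig ∧
      (∑ c ∈ range i, J c - ∑ c ∈ range k, J c) ≤ S.hc (Y i) sig := by
  have hi := hij.trans hj
  have tN := h.tre.tN i hi
  have tNj := h.tre.tN j hj
  have t0 := h.tre.tN 0 (Nat.zero_le _)
  have tY := h.tre.tY hi
  have tYk := h.tre.tY (hk.trans hi)
  have tT := h.tre.tT hi
  have tsig : Sys.Tame sig := tN.mono g1
  constructor
  · have h1 := hc_pair tY tN sig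
    have h2 : S.hc (Sys.pr (Y i) (N i)) sig = S.hc (N i) sig := by
      refine hc_congr ?_ ?_ (frf _) (frf _)
      · exact ftr (fpr (h.tre.YN i hi) (frf _)) (ffst _ _)
      · exact ftr (fsnd _ _) (ffst _ _)
    have h3 : S.hc (N i) (Sys.pr sig (Sys.pr (T i) (N j))) = S.hc (N i) (Sys.pr (T i) (N j)) :=
      hc_cond_zero tN tsig g2
    have h4 : S.hc (N i) (Sys.pr sig (Sys.pr (T i) (N j))) ≤ S.hc (N i) (Sys.pr (Y i) sig) := by
      refine hc_mono_right tN (fpr ?_ (ffst _ _))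
      exact ftr (h.tre.YY' hij hj) (ftr (h.tre.YN j hj) (ftr (fsnd _ _) (fsnd _ _)))
    rw [h2] at h1
    linarith
  · have h1 := hc_Yx h hk hi
    have h2 : S.hc (Y i) (Sys.pr sig (Sys.pr (N 0) (Y k))) = S.hc (Y i) (Sys.pr (N 0) (Y k)) :=
      hc_cond_zero tY tsig g3
    have h3 : S.hc (Y i) (Sys.pr sig (Sys.pr (N 0) (Y k))) ≤ S.hc (Y i) sig :=
      hc_mono_right tY (ffst _ _)
    linarith

/-- **(S)**, abstract form -/
theorem s_core (h : Cts S K N Y T sg H J th) (hL : ∀ c, c < K → 2 * th c ≤ J c) {i j : ℕ}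
    (hij : i ≤ j) (hj2 : j ≤ 2 * i) (hj : j ≤ K)
    {sig : S.RV ς} (g1 : Sys.Fn sig (N i)) (g2 : S.hc sig (Sys.pr (T i) (N j)) = 0)
    (g3 : S.hc sig (Sys.pr (N 0) (Y (2 * i - j))) = 0) :
    S.h sig + (2 * (i : ℝ) + 2 * j) / K + 3 * Cts.Dn S K N T i j ≤
      H i + 4 * (i : ℝ) / K + 3 * (Cts.En K H J th j - Cts.En K H J th i) +
        ((∑ c ∈ range j, J c - ∑ c ∈ range i, J c) -
          (∑ c ∈ range i, J c - ∑ c ∈ range (2 * i - j), J c)) := by
  have hi := hij.trans hj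
  have tN := h.tre.tN i hi
  have tsig : Sys.Tame sig := tN.mono g1
  obtain ⟨a1, a2⟩ := hc_N_sig h hij hj (k := 2 * i - j) (by omega) g1 g2 g3
  have b1 := h.En_sub hij hj
  have b2 := h.Dn_nonneg hij hj
  have b3 := h.Cn_ge hij hj
  have b4 : 2 * ∑ k ∈ Ico i j, th k ≤ ∑ k ∈ Ico i j, J k := by
    rw [mul_sum]
    refine sum_le_sum fun c hc => hL c ?_
    have := (mem_Ico.1 hc).2
    omega
  have b5 := sum_range_add_sum_Ico J hij
  have b6 : S.h (N i) = S.h sig + S.hc (N i) sig := by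
    have c1 := Cts.h_pair_eq tN tsig
    have c2 : S.h (Sys.pr (N i) sig) = S.h (N i) := by
      unfold Sys.h
      refine hc_congr ?_ ?_ (frf _) (frf _)
      · exact ftr (fpr (frf _) g1) (ffst _ _)
      · exact ftr (ffst _ _) (ffst _ _)
    rw [c2] at c1
    linarith
  rw [h.hN i hi] at b6
  have b7 : S.hc (N i) (Sys.pr (T i) (N j)) = 2 * ((j : ℝ) - i) / K - Cts.Cn S K N T i j := by
    unfold Cts.Cn
    ring
  have b8 : (2 * (i : ℝ) + 2 * j) / K = 4 * (i : ℝ) / K + 2 * ((j : ℝ) - i) / K := by ring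
  rw [b8]
  linarith

end Vale.Agent.P122.H265
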