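import Vale.Agent.P122.H265.KA
import Vale.Agent.P127.U.CoarseP

/-!
# P122 / H265 : fattening of boxes (helper265)

`fat m W` : the box `W` made at least `2^-m` thick.  `fat_ineq` is the step (F) : the information of the fat
box about the piece of precision `m` against the value of `W` for the tube of precision `a`.
-/

set_option autoImplicit false

namespace Vale.Agent.P122.H265

open Filter Topology Vale.Agent.P127 Vale.Agent.P127.U Vale.Agent.P127.U.Sys Vale.Agent.P127.U.Fi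
open Vale.Agent.P127.Stk (fl fl1 fl_of_fl)

variable {S : Sys} {γ δ : Type}

/-- the box `W` made at least `2^-m` thick -/
def fat (m : ℕ → ℕ) (W : S.BX) : S.BX := fun i =>
  ⟨(W i).l, (W i).θ, fun ω => min ((W i).k ω) (m i), fun ω => min ((W i).j ω) (m i)⟩

theorem fat_sub {a m : ℕ → ℕ} {l : S.RV Ln} {W : S.BX} (hW : SubA (tubes a l) W) :
    SubA (tubes m l) (fat m W) := by
  obtain ⟨c, hc⟩ := hW
  refine ⟨1, ?_⟩
  filter_upwards [hc] with i hi ω hω
  obtain ⟨h1, h2, h3, h4, h5, -⟩ := hi ω hω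
  refine ⟨h1, h2, min_le_min_right _ h3, min_le_right _ _, min_le_right _ _, ?_⟩
  show |Real.sin _| * (1 / 2 : ℝ) ^ m i ≤ 1 * (1 / 2 : ℝ) ^ min ((W i).j ω) (m i)
  have h6 : (1 / 2 : ℝ) ^ m i ≤ (1 / 2 : ℝ) ^ min ((W i).j ω) (m i) := hp_anti (min_le_right _ _)
  exact mul_le_mul (Real.abs_sin_le_one _) h6 (hp_pos _).le zero_le_one

/-- the fat box is a function of the box -/
theorem fat_lab {m : ℕ → ℕ} {W : S.BX} (hW : BxA W) (Y : S.RV δ) :
    S.hc (BX.lab (fat m W)) (Sys.pr (BX.lab W) Y) = 0 := by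
  refine hc_zero_of_le (Real.log (((2 * 4 + 1) ^ 4 : ℕ) : ℝ)) ?_
  filter_upwards [hW.ok] with i hi
  refine ExcB.hc_labCl' (S.P i) _ _ 4 fun ω ω' hω hω' e => ?_
  have e1 : (W i).lab ω' = (W i).lab ω := congrArg Prod.fst e
  have ek : (W i).k ω' = (W i).k ω := congrArg (fun q => q.1) e1
  have ej : (W i).j ω' = (W i).j ω := congrArg (fun q => q.2.1) e1
  have hkj := (hi ω hω).2.2
  show LabCl 4 (lab ((W i).θ ω') (min ((W i).k ω') (m i)) (min ((W i).j ω') (m i)) ((W i).l ω'))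
    (lab ((W i).θ ω) (min ((W i).k ω) (m i)) (min ((W i).j ω) (m i)) ((W i).l ω))
  rw [ek, ej]
  refine ExcB.lab_coarse (k := (W i).k ω) (j := (W i).j ω) hkj (min_le_min_right _ hkj) (min_le_left _ _)
    (min_le_left _ _) ?_ ?_
  · rcases le_total ((W i).j ω) (m i) with h2 | h2
    · rw [min_eq_left h2, min_eq_left (hkj.trans h2)]
    · rw [min_eq_right h2]
      rcases le_total ((W i).k ω) (m i) with h3 | h3
      · rw [min_eq_left h3]
        omega
      · rw [min_eq_right h3]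
        omega
  · have e2 : lab ((W i).θ ω') ((W i).k ω') ((W i).j ω') ((W i).l ω') =
        lab ((W i).θ ω) ((W i).k ω) ((W i).j ω) ((W i).l ω) := e1
    rw [ek, ej] at e2
    exact e2

/-- the tube of precision `m` is a function of the tube of precision `a` -/
theorem fn_tb {a m : ℕ → ℕ} (h : ∀ i, m i ≤ a i) (l : S.RV Ln) : Fn (tbs m l) (tbs a l) :=
  Eventually.of_forall fun i _ _ _ _ e =>
    Prod.ext (fl_of_fl (h i) _ _ (congrArg Prod.fst e)) (fl_of_fl (h i) _ _ (congrArg Prod.snd e))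

/-- value of a box, informations -/
theorem val_info {a : ℕ → ℕ} {l : S.RV Ln} {W : S.BX} {C : S.RV γ}
    (ha : ∃ c : ℝ, ∀ᶠ i in (uf : Filter ℕ), (a i : ℝ) ≤ c * S.L i) (hl : LnA l) (hC : Tame C)
    (hW : BxA W) :
    S.h (Sys.pr (tbs a l) C) + S.hc W.lab (Sys.pr (tbs a l) C) =
      S.h (Sys.pr W.lab C) + S.val (tubes a l) W C + (2 * S.nu a - S.av W.sz) := by
  have hB : BxA (tubes a l) := tubes_bxA ha hl
  have tB := hB.tame
  have tT : Tame (tbs a l) := Fi.tame_tbs ha hl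
  have tW := hW.tame
  have e1 : S.av (fun i ω => BX.sz (tubes a l) i ω - BX.sz W i ω) = 2 * S.nu a - S.av W.sz := by
    have e2 := av_sub (ol_sz hB) (ol_sz hW)
    have e3 : S.av (BX.sz (tubes a l)) = 2 * S.nu a := by
      have : BX.sz (tubes a l) = fun i _ => 2 * (a i : ℝ) := by
        funext i ω
        show (a i : ℝ) + a i = _
        ring
      rw [this, av_const]
      unfold nu
      rw [← ulim_const_mul 2 (ub_nu ha)]
      refine ulim_congr (Eventually.of_forall fun i => ?_)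
      ring
    rw [← e3]
    exact e2
  have e2 : S.hc (BX.lab (tubes a l)) (Sys.pr W.lab C) = S.hc (tbs a l) (Sys.pr W.lab C) := by
    refine hc_congr ?_ ?_ (Eventually.of_forall fun _ _ _ _ _ e => e)
      (Eventually.of_forall fun _ _ _ _ _ e => e)
    · filter_upwards [Coa.fn_lab a l] with i hi ω ω' p p' e
      exact hi _ _ p p' (congrArg Prod.fst e)
    · filter_upwards [Coa.fn_lab' a l] with i hi ω ω' p p' e
      exact hi _ _ p p' (congrArg Prod.fst e)
  have e3 : S.val (tubes a l) W C = S.hc (tbs a l) (Sys.pr W.lab C) - (2 * S.nu a - S.av W.sz) := by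
    unfold val
    rw [e2, e1]
  have e4 := h_swap (tT.pr hC) (tW.pr hC)
  have e5 : S.hc (Sys.pr W.lab C) (Sys.pr (tbs a l) C) = S.hc W.lab (Sys.pr (tbs a l) C) :=
    hc_congr (Eventually.of_forall fun _ _ _ _ _ e => by
        simp only [pr_apply, Prod.mk.injEq] at e ⊢
        exact ⟨e.1, e.2.2⟩)
      (Eventually.of_forall fun _ _ _ _ _ e => by
        simp only [pr_apply, Prod.mk.injEq] at e
        exact e.1.1)
      (Eventually.of_forall fun _ _ _ _ _ e => e) (Eventually.of_forall fun _ _ _ _ _ e => e)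
  have e6 : S.hc (Sys.pr (tbs a l) C) (Sys.pr W.lab C) = S.hc (tbs a l) (Sys.pr W.lab C) :=
    hc_congr (Eventually.of_forall fun _ _ _ _ _ e => by
        simp only [pr_apply, Prod.mk.injEq] at e ⊢
        exact ⟨e.1, e.2.2⟩)
      (Eventually.of_forall fun _ _ _ _ _ e => by
        simp only [pr_apply, Prod.mk.injEq] at e
        exact e.1.1)
      (Eventually.of_forall fun _ _ _ _ _ e => e) (Eventually.of_forall fun _ _ _ _ _ e => e)
  rw [e5, e6] at e4
  linarith

/-- **(F)** information of the fat box about the piece `σ = (tbs m l, C)` -/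
theorem fat_ineq {a m : ℕ → ℕ} {l : S.RV Ln} {W : S.BX} {C : S.RV γ}
    (ha : ∃ c : ℝ, ∀ᶠ i in (uf : Filter ℕ), (a i : ℝ) ≤ c * S.L i) (hm : ∀ i, m i ≤ a i)
    (hl : LnA l) (hC : Tame C) (hW : SubA (tubes a l) W) :
    S.mi (Sys.pr (BX.lab (fat m W)) C) (Sys.pr (tbs m l) C) one + 2 * S.nu a -
        S.av (BX.sz (fat m W)) ≤
      S.h (Sys.pr (tbs a l) C) - S.val (tubes a l) W C +
        (S.av W.sz - S.av (BX.sz (fat m W))) -
        (S.hc W.lab (Sys.pr (tbs m l) C) - S.hc W.lab (Sys.pr (tbs a l) C)) := by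
  have hWA : BxA W := bxA_of_sub (tubes_bxA ha hl) hW
  have hm' : ∃ c : ℝ, ∀ᶠ i in (uf : Filter ℕ), (m i : ℝ) ≤ c * S.L i := by
    obtain ⟨c, hc⟩ := ha
    refine ⟨c, ?_⟩
    filter_upwards [hc] with i hi
    have : (m i : ℝ) ≤ a i := by exact_mod_cast hm i
    linarith
  have hFA : BxA (fat m W) := bxA_of_sub (tubes_bxA hm' hl) (fat_sub hW)
  have tF : Tame (BX.lab (fat m W)) := hFA.tame
  have tW : Tame (BX.lab W) := hWA.tame
  have tm : Tame (tbs m l) := Fi.tame_tbs hm' hl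
  have ta : Tame (tbs a l) := Fi.tame_tbs ha hl
  set σ := Sys.pr (tbs m l) C with hσ
  have tσ : Tame σ := tm.pr hC
  -- data processing
  have k1 : S.mi (Sys.pr (BX.lab (fat m W)) C) σ one ≤ S.mi (Sys.pr (BX.lab W) C) σ one := by
    have z1 : S.hc (Sys.pr (BX.lab (fat m W)) C) (Sys.pr (BX.lab W) C) = 0 := by
      refine hc_zero_pair tF hC (fat_lab hWA _) ?_
      exact hc_fn (Eventually.of_forall fun _ _ _ _ _ e => congrArg Prod.snd e)
    rw [mi_comm (tF.pr hC) tσ, mi_comm (tW.pr hC) tσ]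
    unfold mi
    rw [hc_pr_one, hc_pr_one]
    have z2 : S.hc σ (Sys.pr (Sys.pr (BX.lab (fat m W)) C) (Sys.pr (BX.lab W) C)) =
        S.hc σ (Sys.pr (BX.lab W) C) := hc_cond_zero tσ (tF.pr hC) z1
    have z3 : S.hc σ (Sys.pr (Sys.pr (BX.lab (fat m W)) C) (Sys.pr (BX.lab W) C)) ≤
        S.hc σ (Sys.pr (BX.lab (fat m W)) C) :=
      hc_mono_right tσ (Eventually.of_forall fun _ _ _ _ _ e => congrArg Prod.fst e)
    linarith
  have k2 : S.mi (Sys.pr (BX.lab W) C) σ one = S.h (Sys.pr (BX.lab W) C) - S.hc W.lab σ := by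
    unfold mi
    rw [hc_pr_one]
    congr 1
    exact hc_congr (Eventually.of_forall fun _ _ _ _ _ e => by
        simp only [pr_apply, Prod.mk.injEq, hσ] at e ⊢
        exact ⟨e.1, e.2.2⟩)
      (Eventually.of_forall fun _ _ _ _ _ e => by
        simp only [pr_apply, Prod.mk.injEq] at e
        exact e.1.1)
      (Eventually.of_forall fun _ _ _ _ _ e => e) (Eventually.of_forall fun _ _ _ _ _ e => e)
  have k3 := val_info (W := W) ha hl hC hWA
  linarith

/-- if the box is already fat -/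
theorem av_fat {m : ℕ → ℕ} {W : S.BX}
    (h : S.Ae fun i ω => (W i).k ω ≤ m i ∧ (W i).j ω ≤ m i) :
    S.av (BX.sz (fat m W)) = S.av W.sz := by
  refine ulim_congr ?_
  filter_upwards [h] with i hi
  congr 1
  refine (S.P i).ex_congr fun ω hω => ?_
  obtain ⟨h1, h2⟩ := hi ω hω
  show ((min ((W i).k ω) (m i) : ℕ) : ℝ) + ((min ((W i).j ω) (m i) : ℕ) : ℝ) = _
  rw [min_eq_left h1, min_eq_left h2]
  rfl

/-- the fat tube -/
theorem av_fat_tubes {a m : ℕ → ℕ} (h : ∀ i, m i ≤ a i)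
    (ha : ∃ c : ℝ, ∀ᶠ i in (uf : Filter ℕ), (a i : ℝ) ≤ c * S.L i) (l : S.RV Ln) :
    S.av (BX.sz (fat m (tubes a l))) = 2 * S.nu m := by
  have hm' : ∃ c : ℝ, ∀ᶠ i in (uf : Filter ℕ), (m i : ℝ) ≤ c * S.L i := by
    obtain ⟨c, hc⟩ := ha
    refine ⟨c, ?_⟩
    filter_upwards [hc] with i hi
    have : (m i : ℝ) ≤ a i := by exact_mod_cast h i
    linarith
  have : BX.sz (fat m (tubes a l)) = fun i _ => 2 * (m i : ℝ) := by
    funext i ω
    show ((min (a i) (m i) : ℕ) : ℝ) + ((min (a i) (m i) : ℕ) : ℝ) = _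
    rw [min_eq_right (h i)]
    ring
  rw [this, av_const]
  unfold nu
  rw [← ulim_const_mul 2 (ub_nu hm')]
  refine ulim_congr (Eventually.of_forall fun i => ?_)
  ring

end Vale.Agent.P122.H265
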