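import Vale.Agent.P122.E.Defs
import Vale.Agent.P122.H474.Path
import Vale.Agent.P127.U.FillB

/-!
# P122 / H265 : the piece `sig c d` is a function of the point and of the cap of level `2 c - d` (helper265)
-/

set_option autoImplicit false

namespace Vale.Agent.P122.H265

open Filter Topology Finset Vale.Agent.P127 Vale.Agent.P127.Stk Vale.Agent.P127.U Vale.Agent.P127.U.Sys Vale.Agent.P122.C2
  Vale.Agent.P122.E Vale.Agent.P122.H474

/-- a node known up to `O(1)` offsets -/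
theorem zero_nd {S : Sys} {γ : Type*} (X : S.RV Nd) (Z : S.RV γ) (B : ℕ)
    (h : ∀ᶠ i in (uf : Filter ℕ), ∀ ω ω', 0 < (S.P i).w ω → 0 < (S.P i).w ω' → Z i ω' = Z i ω →
      (X i ω').τ = (X i ω).τ ∧ (X i ω').T = (X i ω).T ∧ ∀ k, |(X i ω').o k - (X i ω).o k| ≤ B) :
    S.hc X Z = 0 := by
  classical
  refine hc_zero_of_le (Real.log (((2 * B + 1) ^ 2 : ℕ) : ℝ)) ?_
  filter_upwards [h] with i hi
  refine Stk.hc_le_log (S.P i) (X i) (Z i) _ fun ω hω => ?_
  refine ⟨(Fintype.piFinset fun k => Finset.Icc ((X i ω).o k - B) ((X i ω).o k + B)).image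
    fun o => (⟨(X i ω).τ, o, (X i ω).T⟩ : Nd), ?_, ?_⟩
  · refine Finset.card_image_le.trans ?_
    rw [Fintype.card_piFinset]
    have h1 : ∀ k : Fin 2, (Finset.Icc ((X i ω).o k - (B : ℤ)) ((X i ω).o k + B)).card = 2 * B + 1 := by
      intro k
      rw [Int.card_Icc]
      omega
    rw [Finset.prod_congr rfl fun k _ => h1 k]
    simp
  · intro ω' hω' e
    obtain ⟨h1, h2, h3⟩ := hi ω ω' hω hω' e
    rw [Finset.mem_image]
    refine ⟨(X i ω').o, ?_, ?_⟩
    · rw [Fintype.mem_piFinset]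
      intro k
      have := abs_le.1 (h3 k)
      rw [Finset.mem_Icc]
      constructor <;> linarith [this.1, this.2]
    · rw [← h1, ← h2]

variable {K : ℕ} (F : Flg K)

/-- the nodes of a flag form a chain -/
theorem chn (i : ℕ) (ω : F.S.Ω i) (hω : 0 < (F.S.P i).w ω) : Chn (F.s i) (F.n i) K fun c => F.N c i ω := by
  refine ⟨?_, fun c hc => (F.step i ω hω c hc).2, fun c hc => (F.step i ω hω c hc).1⟩
  intro c
  induction c with
  | zero =>
    intro _ k
    rw [(F.root i ω hω).1]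
    simp
  | succ c ih =>
    intro hc k
    have h1 := (F.step i ω hω c (by omega)).1
    have h2 := ih (by omega) k
    unfold kids at h1
    rw [Fintype.mem_piFinset] at h1
    have h3 := Finset.mem_Ico.1 (h1 k)
    have hp : (0:ℤ) < 2 ^ F.n i := by positivity
    have e : (2:ℤ) ^ ((c + 1) * F.n i) = 2 ^ F.n i * 2 ^ (c * F.n i) := by
      rw [← pow_add]
      congr 1
      ring
    rw [e]
    constructor
    · exact le_trans (mul_nonneg hp.le h2.1) h3.1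
    · refine lt_of_lt_of_le h3.2 ?_
      exact mul_le_mul_of_nonneg_left (by linarith [h2.2]) hp.le

/-- the offset of the piece near an explicit function of the point and of the cap `k = 2 c - d` -/
theorem sig_near {c d : ℕ} (hcd : c ≤ d) (hd2 : d ≤ 2 * c) (hcK : c ≤ K) {i : ℕ} {ω : F.S.Ω i}
    (hω : 0 < (F.S.P i).w ω) (k : Fin 2) :
    |((F.sig c d i ω).o k : ℝ) - (((F.N 0 i ω).o k : ℝ) - (((F.N 0 i ω).T : ℝ) -
      2 ^ (2 * c * F.n i) * (((F.N 0 i ω).T / 2 ^ (2 * c * F.n i) : ℤ) : ℝ)) *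
        F.s i (2 * c - d) (F.N (2 * c - d) i ω).τ k) / 2 ^ (d * F.n i)| ≤ (2 * F.C + 2) * K + 1 := by
  have hc := chn F i ω hω
  have hs := F.slp i
  have hC := Chn.C_nonneg hs
  set n := F.n i with hn
  set q := 2 * c - d with hq
  have h1 := hc.posn hs (Nat.zero_le c) hcK k
  have h2 := hc.slope hs (c := q) (d := c) (by omega) hcK k
  have h3 := hc.tm_sub_nonneg (Nat.zero_le c) hcK
  have h4 := hc.tm_sub_le (Nat.zero_le c) hcK
  have h5 := hc.T_eq (Nat.zero_le c) hcK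
  have h6 := abs_ediv_sub ((F.N c i ω).o k) ((d - c) * n)
  simp only [Nat.sub_zero] at h5
  simp only [tm, mul_zero, zero_mul, pow_zero, one_mul, Nat.cast_zero, sub_zero, ps, h5] at h1 h3 h4
  set T0 : ℝ := ((F.N 0 i ω).T : ℝ) with hT0
  set Tc : ℝ := (((F.N 0 i ω).T / 2 ^ (2 * c * n) : ℤ) : ℝ) with hTc
  set o0 : ℝ := ((F.N 0 i ω).o k : ℝ) with ho0
  set oc : ℝ := ((F.N c i ω).o k : ℝ) with hoc
  set sc : ℝ := F.s i c (F.N c i ω).τ k with hsc
  set sq : ℝ := F.s i q (F.N q i ω).τ k with hsq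
  have hso : ((F.sig c d i ω).o k : ℝ) = (((F.N c i ω).o k / 2 ^ ((d - c) * n) : ℤ) : ℝ) := rfl
  rw [hso]
  have pd : (0:ℝ) < 2 ^ (d * n) := by positivity
  have pc : (0:ℝ) < 2 ^ (c * n) := by positivity
  have h7 : T0 - 2 ^ (2 * c * n) * Tc ≤ 2 ^ (2 * c * n) := by linarith
  -- change of the slope
  have h8 : |(T0 - 2 ^ (2 * c * n) * Tc) * (sc - sq)| ≤ F.C * ((c:ℝ) - q) * 2 ^ (d * n) := by
    rw [abs_mul, abs_of_nonneg h3]
    have e1 : (2:ℝ) ^ (2 * c * n) = 2 ^ (d * n) * 2 ^ (q * n) := by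
      rw [← pow_add, ← add_mul]
      congr 2
      omega
    have h9 : |sc - sq| ≤ F.C * ((c:ℝ) - q) / 2 ^ (q * n) := by
      rw [abs_sub_comm]
      exact h2
    calc (T0 - 2 ^ (2 * c * n) * Tc) * |sc - sq|
        ≤ 2 ^ (2 * c * n) * (F.C * ((c:ℝ) - q) / 2 ^ (q * n)) :=
          mul_le_mul h7 h9 (abs_nonneg _) (by positivity)
      _ = F.C * ((c:ℝ) - q) * 2 ^ (d * n) := by
          rw [e1]
          field_simp
  have h10 : |2 ^ (c * n) * oc - (o0 - (T0 - 2 ^ (2 * c * n) * Tc) * sq)| ≤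
      ((F.C + 2) * c + F.C * ((c:ℝ) - q)) * 2 ^ (d * n) := by
    have e2 : 2 ^ (c * n) * oc - (o0 - (T0 - 2 ^ (2 * c * n) * Tc) * sq) =
        -(o0 - (2 ^ (c * n) * oc + (T0 - 2 ^ (2 * c * n) * Tc) * sc)) +
          -((T0 - 2 ^ (2 * c * n) * Tc) * (sc - sq)) := by ring
    rw [e2]
    refine (abs_add_le _ _).trans ?_
    rw [abs_neg, abs_neg]
    have e3 : (2:ℝ) ^ (c * n) ≤ 2 ^ (d * n) :=
      pow_le_pow_right₀ (by norm_num) (Nat.mul_le_mul_right n hcd)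
    have e4 : (F.C + 2) * (c:ℝ) * 2 ^ (c * n) ≤ (F.C + 2) * c * 2 ^ (d * n) :=
      mul_le_mul_of_nonneg_left e3 (by positivity)
    rw [add_mul]
    linarith
  have h11 : |oc / 2 ^ ((d - c) * n) - (o0 - (T0 - 2 ^ (2 * c * n) * Tc) * sq) / 2 ^ (d * n)| ≤
      (F.C + 2) * c + F.C * ((c:ℝ) - q) := by
    have e5 : oc / 2 ^ ((d - c) * n) = 2 ^ (c * n) * oc / 2 ^ (d * n) := by
      have e6 : (2:ℝ) ^ (d * n) = 2 ^ (c * n) * 2 ^ ((d - c) * n) := by
        rw [← pow_add, ← add_mul]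
        congr 2
        omega
      rw [e6]
      field_simp
    rw [e5, ← sub_div, abs_div, abs_of_pos pd, div_le_iff₀ pd]
    exact h10
  have h12 : (c:ℝ) ≤ K := by exact_mod_cast hcK
  have h13 : (0:ℝ) ≤ q := Nat.cast_nonneg _
  have h14 : (F.C + 2) * (c:ℝ) + F.C * ((c:ℝ) - q) ≤ (2 * F.C + 2) * K := by nlinarith
  have h15 := abs_sub_le (((F.N c i ω).o k / 2 ^ ((d - c) * n) : ℤ) : ℝ) (oc / 2 ^ ((d - c) * n))
    ((o0 - (T0 - 2 ^ (2 * c * n) * Tc) * sq) / 2 ^ (d * n))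
  linarith

/-- the piece `sig c d` is a function of the point and of the cap of level `2 c - d`, up to `O(1)` -/
theorem sig_xY {c d : ℕ} (hcd : c ≤ d) (hd2 : d ≤ 2 * c) (hcK : c ≤ K) :
    F.S.hc (F.sig c d) (Sys.pr F.x (F.Y (2 * c - d))) = 0 := by
  obtain ⟨B, hB⟩ := exists_nat_ge (2 * ((2 * F.C + 2) * K + 1))
  refine zero_nd _ _ B (Eventually.of_forall fun i ω ω' hω hω' e => ?_)
  simp only [pr_apply, Prod.mk.injEq] at e
  obtain ⟨ex, eY⟩ := e
  have ex' : F.N 0 i ω' = F.N 0 i ω := ex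
  have eY' : (F.N (2 * c - d) i ω').τ = (F.N (2 * c - d) i ω).τ := eY
  have hc := chn F i ω hω
  have hc' := chn F i ω' hω'
  refine ⟨?_, ?_, ?_⟩
  · funext k
    show (F.N c i ω').τ k / 2 ^ ((d - c) * F.n i) = (F.N c i ω).τ k / 2 ^ ((d - c) * F.n i)
    have h1 := hc.tau_eq (c := 2 * c - d) (d := c) (by omega) hcK k
    have h2 := hc'.tau_eq (c := 2 * c - d) (d := c) (by omega) hcK k
    have h3 : c - (2 * c - d) = d - c := by omega
    rw [h3] at h1 h2
    rw [← h1, ← h2, eY']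
  · show (F.N c i ω').T = (F.N c i ω).T
    rw [hc.T_eq (Nat.zero_le c) hcK, hc'.T_eq (Nat.zero_le c) hcK, ex']
  · intro k
    have h1 := sig_near F hcd hd2 hcK hω k
    have h2 := sig_near F hcd hd2 hcK hω' k
    rw [ex', eY'] at h2
    have h3 := abs_sub_le ((F.sig c d i ω').o k : ℝ) _ ((F.sig c d i ω).o k : ℝ) |>.trans
      (add_le_add h2 (le_of_eq_of_le (abs_sub_comm _ _) h1))
    have h4 : |((F.sig c d i ω').o k : ℝ) - ((F.sig c d i ω).o k : ℝ)| ≤ (B : ℝ) := by linarith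
    exact_mod_cast h4

/-- the piece `sig c d` is a function of the time block and of the node of level `d`, up to `O(1)` -/
theorem sig_TN {c d : ℕ} (hcd : c ≤ d) (hdK : d ≤ K) :
    F.S.hc (F.sig c d) (Sys.pr (F.T c) (F.N d)) = 0 := by
  obtain ⟨B, hB⟩ := exists_nat_ge (2 * ((F.C + 2) * ((d : ℝ) - c) + 1))
  refine zero_nd _ _ B (Eventually.of_forall fun i ω ω' hω hω' e => ?_)
  simp only [pr_apply, Prod.mk.injEq] at e
  obtain ⟨eT, eN⟩ := e
  have eT' : (F.N c i ω').T = (F.N c i ω).T := eT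
  have eN' : F.N d i ω' = F.N d i ω := eN
  have hc := chn F i ω hω
  have hc' := chn F i ω' hω'
  have hcK := hcd.trans hdK
  refine ⟨?_, eT', ?_⟩
  · funext k
    show (F.N c i ω').τ k / 2 ^ ((d - c) * F.n i) = (F.N c i ω).τ k / 2 ^ ((d - c) * F.n i)
    have h1 := hc.tau_eq hcd hdK k
    have h2 := hc'.tau_eq hcd hdK k
    rw [h1, h2, eN']
  · intro k
    have h1 := hc.o_near (F.slp i) hcd hdK k
    have h2 := hc'.o_near (F.slp i) hcd hdK k
    rw [eT', eN'] at h2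
    have h5 : |((F.sig c d i ω').o k : ℝ) - ((F.sig c d i ω).o k : ℝ)| ≤ (B : ℝ) := by
      have e1 : ((F.sig c d i ω).o k : ℝ) = (((F.N c i ω).o k / 2 ^ ((d - c) * F.n i) : ℤ) : ℝ) := rfl
      have e2 : ((F.sig c d i ω').o k : ℝ) = (((F.N c i ω').o k / 2 ^ ((d - c) * F.n i) : ℤ) : ℝ) := rfl
      rw [e1, e2]
      rw [abs_le] at h1 h2 ⊢
      constructor <;> linarith [h1.1, h1.2, h2.1, h2.2]
    exact_mod_cast h5

end Vale.Agent.P122.H265
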