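import Vale.Agent.P122.H265.S7
import Vale.Agent.P122.H265.Sig
import Vale.Agent.P122.H265.Fat
import Vale.Agent.P122.H518.E12
import Vale.Agent.P122.H655.E3

/-!
# P122 / H265 : the step (S) of the regular systems, `e7_of : E4 → E7 C₀` (helper265)
-/

set_option autoImplicit false

namespace Vale.Agent.P122.H265

open Filter Topology Finset Vale.Agent.P127 Vale.Agent.P127.Stk Vale.Agent.P127.U Vale.Agent.P127.U.Sys Vale.Agent.P122.C2
  Vale.Agent.P122.E Vale.Agent.P122.H518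

variable {K : ℕ} (F : Flg K)

/-- the digits of the level `c` are `O(L)` -/
theorem bd_m (hK : 1 ≤ K) (c : ℕ) : ∃ r : ℝ, ∀ᶠ i in (uf : Filter ℕ), (F.m c i : ℝ) ≤ r * F.S.L i := by
  refine ⟨c, Eventually.of_forall fun i => ?_⟩
  rw [F.L_eq i]
  show ((c * F.n i : ℕ) : ℝ) ≤ (c : ℝ) * ((K * F.n i : ℕ) : ℝ)
  have h : c * F.n i ≤ c * (K * F.n i) := Nat.mul_le_mul_left c (Nat.le_mul_of_pos_left _ hK)
  exact_mod_cast h

/-- the exponent of the level `c` -/
theorem nu_m (hK : 1 ≤ K) (c : ℕ) : F.S.nu (F.m c) = (c : ℝ) / K := by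
  unfold nu
  rw [← ulim_const ((c : ℝ) / K)]
  refine ulim_congr ?_
  filter_upwards [F.S.L_pos] with i hi
  rw [F.L_eq i] at hi ⊢
  have h1 : (0:ℝ) < (K : ℝ) := by exact_mod_cast hK
  have h2 : 0 < F.n i := Nat.pos_of_mul_pos_left hi |> fun h => by
    rcases Nat.eq_zero_or_pos (F.n i) with h0 | h0
    · rw [h0, mul_zero] at hi
      exact absurd hi (lt_irrefl 0)
    · exact h0
  have h3 : (0:ℝ) < (F.n i : ℝ) := by exact_mod_cast h2
  show ((c * F.n i : ℕ) : ℝ) / ((K * F.n i : ℕ) : ℝ) = (c : ℝ) / K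
  push_cast
  field_simp

/-- the lines of the nodes are normalised -/
theorem lnA_ln (c : ℕ) (hc : c ≤ K) : LnA (F.ln c) :=
  Eventually.of_forall fun i _ hω => H655.lnOk_ln F i hω c hc

/-- average size of tubes -/
theorem av_tubes {S : Sys} {m : ℕ → ℕ} (hm : ∃ c : ℝ, ∀ᶠ i in (uf : Filter ℕ), (m i : ℝ) ≤ c * S.L i)
    (l : S.RV Ln) : S.av (BX.sz (tubes m l)) = 2 * S.nu m := by
  have : BX.sz (tubes m l) = fun i _ => 2 * (m i : ℝ) := by
    funext i ω
    show (m i : ℝ) + m i = _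
    ring
  rw [this, Fi.av_const]
  unfold nu
  rw [← ulim_const_mul 2 (Fi.ub_nu hm)]
  refine ulim_congr (Eventually.of_forall fun i => ?_)
  ring

/-- the tube contains itself -/
theorem subA_self {S : Sys} {m : ℕ → ℕ} (l : S.RV Ln) : SubA (tubes m l) (tubes m l) := by
  refine ⟨0, Eventually.of_forall fun i ω _ => ⟨rfl, ?_, le_rfl, le_rfl, le_rfl, ?_⟩⟩
  · show |(0:ℝ)| ≤ 4
    norm_num
  · show |Real.sin (0 - 0)| * _ ≤ _
    simp

/-- **E7 = (S)** from **E4 = (K)** -/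
theorem e7_of (h4 : E4) {C₀ : ℝ} (hC : 0 ≤ C₀) : E7 C₀ := by
  intro K F J θ H e W kk jj hK R i j hij hj2 hjK
  have hKr : (0:ℝ) ≤ (K : ℝ) := Nat.cast_nonneg _
  have hCK : 0 ≤ C₀ / K := div_nonneg hC hKr
  have c := cts hK R
  rcases Nat.eq_zero_or_pos i with h0 | h0
  · subst h0
    have hj0 : j = 0 := by omega
    subst hj0
    have := R.e0 0 (Nat.zero_le _)
    simp only [Nat.sub_zero, sub_self, mul_zero, add_zero]
    linarith
  · have hiK := hij.trans hjK
    have a1 := h4 F i j hK h0 hij hj2 hjK F.S (Ext.refl F.S) (tubes (F.m (2 * i - j)) (F.ln i))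
      (subA_self _)
    have a2 : F.exc j ≤ e j := H655.e3 F j (e j) hK hjK (R.e0 j hjK) (R.exU j hjK)
    have a3 := av_tubes (bd_m F hK (2 * i - j)) (F.ln i)
    rw [a3, nu_m F hK] at a1
    have tsig : Tame (F.sig i j) := (c.tre.tN i hiK).mono (Eventually.of_forall fun k ω ω' _ _ e => by
      show F.sig i j k ω = F.sig i j k ω'
      unfold Flg.sig
      rw [e])
    have a4 : 0 ≤ F.S.hc ((Ext.refl F.S).pull (F.sig i j))
        (Sys.pr (BX.lab (tubes (F.m (2 * i - j)) (F.ln i))) ((Ext.refl F.S).pull (F.ball i))) :=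
      hc_nonneg tsig _
    have a5 := s_core c R.L hij hj2 hjK (sig := F.sig i j) (Eventually.of_forall fun k ω ω' _ _ e => by
      show F.sig i j k ω = F.sig i j k ω'
      unfold Flg.sig
      rw [e]) (sig_TN F hij hjK) (sig_xY F hij hj2 hiK)
    have a6 : F.S.hc (F.N j) (one (S := F.S)) = H j := c.hN j hjK
    have a7 : Cts.Dn F.S K F.N F.T i j = F.D i j := rfl
    have a8 : F.S.hc (F.sig i j) (one (S := F.S)) = F.S.h (F.sig i j) := rfl
    rw [a6, a8] at a1
    rw [a7] at a5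
    have a9 : ((2 * i - j : ℕ) : ℝ) = 2 * (i : ℝ) - j := by
      rw [Nat.cast_sub hj2]
      push_cast
      ring
    rw [a9] at a1
    have a10 : 6 * (i : ℝ) / K - 2 * ((2 * (i : ℝ) - j) / K) = (2 * (i : ℝ) + 2 * j) / K := by ring
    show H j + 4 * (j : ℝ) / K - e j ≤ H i + 4 * (i : ℝ) / K - e i + e i +
      3 * (Cts.En K H J θ j - Cts.En K H J θ i) +
      ((∑ c ∈ range j, J c - ∑ c ∈ range i, J c) -
        (∑ c ∈ range i, J c - ∑ c ∈ range (2 * i - j), J c)) + C₀ / K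
    linarith

end Vale.Agent.P122.H265
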