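import Vale.Agent.P127.U.Fill
import Vale.Agent.P127.U.ExcC

/-!
# P122 / H265 : the Kakeya step inside one tube (helper265)

`ka` : tube `l` of precision `n`, ball of radius `2^-s` around the point of time `t`, box `W` around the
tubelet of precision `m` of the ball, `n = s + m`.  The time is filled by `m` uniform digits and the
inequality with price `N` is applied to the new point.
-/

set_option autoImplicit false

namespace Vale.Agent.P122.H265

open Filter Topology Vale.Agent.P127 Vale.Agent.P127.U Vale.Agent.P127.U.Sys Vale.Agent.P127.U.Fi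
open Vale.Agent.P127.Stk (fl fl1)

/-- the point of the new time is a function of the tubelet and of the new digits -/
theorem zero_fine {S : Sys} {n s m : ℕ → ℕ} {l : S.RV Ln} {t : S.RV ℝ} {u : S.RV ℤ}
    (h : Par S n s m) (hl : LnA l) (ht : T01 t)
    (ht' : T01 (S := S) fun i ω => nt (m i) (n i) (cl (s i) (t i ω)) (u i ω))
    (hn : S.Ae fun i ω => |nt (m i) (n i) (cl (s i) (t i ω)) (u i ω) - t i ω| ≤
      2 * (1 / 2 : ℝ) ^ s i) :
    S.hc (pqs n (pt l fun i ω => nt (m i) (n i) (cl (s i) (t i ω)) (u i ω)))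
      (Sys.pr u (Sys.pr (tbs m (bl s l t)) (pqs s (pt l t)))) = 0 := by
  set t' : S.RV ℝ := fun i ω => nt (m i) (n i) (cl (s i) (t i ω)) (u i ω) with ht'd
  have htt : ∀ {i : ℕ} {ω ω' : S.Ω i}, fl1 (s i) (t i ω') = fl1 (s i) (t i ω) →
      u i ω' = u i ω → t' i ω' = t' i ω := by
    intro i ω ω' e1 e2
    simp only [ht'd, cl, e1, e2]
  set V : S.RV (Fin 2 → ℤ) := dgv s (ps s l t) with hV
  have tV : Tame V := tame_ps h.bds hl ht
  have tX : Tame (pqs n (pt l t')) := tame_pqs h.bd hl ht'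
  have hVz : S.hc V (Sys.pr u (Sys.pr (tbs m (bl s l t)) (pqs s (pt l t)))) = 0 := by
    refine hc_zero_fl s 3 (ps s l t) _ ?_
    filter_upwards [hl] with i h1 ω ω' hω hω' e j
    simp only [pr_apply, Prod.mk.injEq] at e
    have e3 := congrArg Prod.fst e.2.2
    have e4 := fl_close1 (congrArg Prod.snd e.2.2) j
    have e6 : qa (s i) (t i ω') = qa (s i) (t i ω) := qa_congr e3
    have key : ps s l t i ω' j - ps s l t i ω j =
        (pos (l i ω') (t i ω') j - pos (l i ω) (t i ω) j) +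
        -((t i ω' - qa (s i) (t i ω')) * (l i ω').2 j) +
        (t i ω - qa (s i) (t i ω)) * (l i ω).2 j := by
      unfold ps pos
      ring
    rw [key]
    have b1 := abs_le_of_mul (qa_close (s i) (t i ω')) ((h1 ω' hω').2 j)
    have b2 := abs_le_of_mul (qa_close (s i) (t i ω)) ((h1 ω hω).2 j)
    rw [← abs_neg] at b1
    have e4' : |pos (l i ω') (t i ω') j - pos (l i ω) (t i ω) j| ≤ (1 / 2 : ℝ) ^ s i := e4
    have := abs_add3 e4' b1 b2
    push_cast
    linarith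
  rw [← hc_cond_zero tX tV hVz]
  refine hc_zero_pair (X := dg n t') (t01_tame ht' h.bd) (tame_posv h.bd hl (t01_abs ht')) ?_ ?_
  · refine hc_fn (Eventually.of_forall fun i ω ω' _ _ e => ?_)
    simp only [pr_apply, Prod.mk.injEq] at e
    have e1 : fl1 (s i) (t i ω) = fl1 (s i) (t i ω') := congrArg Prod.fst e.2.2.2
    show fl1 (n i) (t' i ω) = fl1 (n i) (t' i ω')
    rw [htt e1 e.2.1]
  · refine hc_zero_fl n 4 (fun i ω => pos (l i ω) (t' i ω)) _ ?_
    filter_upwards [hl, hn] with i h1 h2 ω ω' hω hω' e j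
    simp only [pr_apply, Prod.mk.injEq] at e
    obtain ⟨eV, eu, eT, eQ⟩ := e
    have e1 : fl1 (s i) (t i ω') = fl1 (s i) (t i ω) := congrArg Prod.fst eQ
    have e2 : t' i ω' = t' i ω := htt e1 eu
    have e6 : qa (s i) (t i ω') = qa (s i) (t i ω) := qa_congr e1
    have eV' : ⌊(2:ℝ) ^ s i * ps s l t i ω' j⌋ = ⌊(2:ℝ) ^ s i * ps s l t i ω j⌋ := congrFun eV j
    have f1 := fl_close1 (Prod.mk.inj eT).1 j
    have f2 := fl_close1 (Prod.mk.inj eT).2 j
    have f1' : |Int.fract ((2:ℝ) ^ s i * ps s l t i ω' j) - Int.fract ((2:ℝ) ^ s i * ps s l t i ω j)| ≤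
        (1 / 2 : ℝ) ^ m i := f1
    have f2' : |(l i ω').2 j - (l i ω).2 j| ≤ (1 / 2 : ℝ) ^ m i := f2
    have h2s : (0:ℝ) < 2 ^ s i := by positivity
    have hsp : (2:ℝ) ^ s i * (1 / 2) ^ s i = 1 := by rw [← mul_pow]; norm_num
    have hsn : (1 / 2 : ℝ) ^ s i * (1 / 2) ^ m i = (1 / 2) ^ n i := by rw [← pow_add, h.add i]
    have g1 : |ps s l t i ω' j - ps s l t i ω j| ≤ (1 / 2 : ℝ) ^ n i := by
      have g2 : (2:ℝ) ^ s i * (ps s l t i ω' j - ps s l t i ω j) =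
          Int.fract ((2:ℝ) ^ s i * ps s l t i ω' j) - Int.fract ((2:ℝ) ^ s i * ps s l t i ω j) := by
        rw [Int.fract, Int.fract, eV']
        ring
      rw [← g2, abs_mul, abs_of_pos h2s] at f1'
      have g3 : (2:ℝ) ^ s i * |ps s l t i ω' j - ps s l t i ω j| ≤ 2 ^ s i * (1 / 2) ^ n i := by
        refine f1'.trans (le_of_eq ?_)
        rw [← hsn, ← mul_assoc, hsp, one_mul]
      exact le_of_mul_le_mul_left g3 h2s
    have g4 : |t' i ω - qa (s i) (t i ω)| ≤ 3 * (1 / 2 : ℝ) ^ s i := by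
      have a1 := h2 ω hω
      have a2 := qa_close (s i) (t i ω)
      have a3 := abs_add_le (t' i ω - t i ω) (t i ω - qa (s i) (t i ω))
      have a4 : t' i ω - t i ω + (t i ω - qa (s i) (t i ω)) = t' i ω - qa (s i) (t i ω) := by ring
      rw [a4] at a3
      have a1' : |t' i ω - t i ω| ≤ 2 * (1 / 2 : ℝ) ^ s i := a1
      linarith
    have g5 := abs_le_of_mul g4 f2'
    have key : pos (l i ω') (t' i ω') j - pos (l i ω) (t' i ω) j =
        (ps s l t i ω' j - ps s l t i ω j) +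
        (t' i ω - qa (s i) (t i ω)) * ((l i ω').2 j - (l i ω).2 j) := by
      rw [e2]
      unfold ps
      rw [e6]
      unfold pos
      ring
    rw [key]
    have g6 : 3 * (1 / 2 : ℝ) ^ s i * (1 / 2) ^ m i = 3 * (1 / 2) ^ n i := by rw [mul_assoc, hsn]
    rw [g6] at g5
    have := abs_add_le (ps s l t i ω' j - ps s l t i ω j)
      ((t' i ω - qa (s i) (t i ω)) * ((l i ω').2 j - (l i ω).2 j))
    push_cast
    linarith

/-- entropy of the new time -/
theorem hc_newtime {S : Sys} {n s m : ℕ → ℕ} {t : S.RV ℝ} {δ : Type} {Y : S.RV δ} (hP : Par S n s m)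
    (ht : T01 t) {S₁ : Sys} (e₁ : Ext S₁ S) {u : S₁.RV ℤ}
    (hu : ∀ i ω, 0 ≤ u i ω ∧ u i ω < 2 ^ m i)
    (hu' : ∀ (β : Type) (Y : S.RV β), S₁.hc u (e₁.pull Y) = S.nu m) :
    S₁.hc (dg n fun i ω => nt (m i) (n i) (cl (s i) (e₁.pull t i ω)) (u i ω)) (e₁.pull Y) =
      S.hc (dg s t) Y + S.nu m := by
  set c₀ : S.RV ℤ := fun i ω => cl (s i) (t i ω) with hc₀
  have tdσ : Tame (dg s t) := t01_tame ht hP.bds
  have tc₀ : Tame c₀ := by
    refine tdσ.mono (Eventually.of_forall fun i ω ω' _ _ e => ?_)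
    show min (fl1 (s i) (t i ω)) _ = min (fl1 (s i) (t i ω')) _
    have e' : fl1 (s i) (t i ω) = fl1 (s i) (t i ω') := e
    rw [e']
  have tu : Tame u := tame_digits (hP.ext e₁).bdm hu
  have a1 : S₁.hc (dg n fun i ω => nt (m i) (n i) (cl (s i) (e₁.pull t i ω)) (u i ω)) (e₁.pull Y) =
      S₁.hc (Sys.pr (e₁.pull c₀) u) (e₁.pull Y) := by
    refine hc_congr (Eventually.of_forall fun i ω ω' _ _ e => ?_)
      (Eventually.of_forall fun i ω ω' _ _ e => ?_) (Eventually.of_forall fun _ _ _ _ _ e => e)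
      (Eventually.of_forall fun _ _ _ _ _ e => e)
    · simp only [pr_apply, Prod.mk.injEq] at e
      show fl1 (n i) (nt _ _ _ _) = fl1 (n i) (nt _ _ _ _)
      rw [fl1_nt, fl1_nt, e.1.2]
      have e3 : cl (s i) (e₁.pull t i ω) = cl (s i) (e₁.pull t i ω') := e.1.1
      rw [e3]
    · simp only [pr_apply, Prod.mk.injEq] at e
      have e1 : fl1 (n i) (nt (m i) (n i) (e₁.pull c₀ i ω) (u i ω)) =
        fl1 (n i) (nt (m i) (n i) (e₁.pull c₀ i ω') (u i ω')) := e.1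
      rw [fl1_nt, fl1_nt] at e1
      have b1 := hu i ω
      have b2 := hu i ω'
      have b3 : e₁.pull c₀ i ω = e₁.pull c₀ i ω' := by
        have q1 : (e₁.pull c₀ i ω * 2 ^ m i + u i ω) / 2 ^ m i = e₁.pull c₀ i ω := by
          rw [add_comm, Int.add_mul_ediv_right _ _ (by positivity),
            Int.ediv_eq_zero_of_lt b1.1 b1.2, zero_add]
        have q2 : (e₁.pull c₀ i ω' * 2 ^ m i + u i ω') / 2 ^ m i = e₁.pull c₀ i ω' := by
          rw [add_comm, Int.add_mul_ediv_right _ _ (by positivity),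
            Int.ediv_eq_zero_of_lt b2.1 b2.2, zero_add]
        rw [← q1, ← q2, e1]
      simp only [pr_apply, Prod.mk.injEq]
      refine ⟨b3, ?_⟩
      rw [b3] at e1
      linarith
  rw [a1, hc_pair (e₁.tame tc₀) tu]
  have a2 : S₁.hc (e₁.pull c₀) (e₁.pull Y) = S.hc c₀ Y := e₁.hc c₀ Y
  have a3 : S₁.hc u (Sys.pr (e₁.pull c₀) (e₁.pull Y)) = S.nu m := hu' _ (Sys.pr c₀ Y)
  rw [a2, a3]
  congr 1
  refine hc_eq_of_zero tc₀ tdσ ?_ ?_
  · refine hc_fn (Eventually.of_forall fun i ω ω' _ _ e => ?_)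
    simp only [pr_apply, Prod.mk.injEq] at e
    show min (fl1 (s i) (t i ω)) _ = min (fl1 (s i) (t i ω')) _
    have e' : fl1 (s i) (t i ω) = fl1 (s i) (t i ω') := e.1
    rw [e']
  · refine hc_zero_int 1 (dg s t) _ ?_
    filter_upwards [ht] with i hi ω ω' hω hω' e
    simp only [pr_apply, Prod.mk.injEq] at e
    have e' : cl (s i) (t i ω') = cl (s i) (t i ω) := e.1
    obtain ⟨-, -, c2, c3⟩ := cl_facts (s := s i) (hi ω hω).1 (hi ω hω).2
    obtain ⟨-, -, c2', c3'⟩ := cl_facts (s := s i) (hi ω' hω').1 (hi ω' hω').2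
    show |fl1 (s i) (t i ω') - fl1 (s i) (t i ω)| ≤ _
    rw [e'] at c2' c3'
    rw [abs_le]
    push_cast
    constructor <;> linarith

/-- **the Kakeya step inside one tube** -/
theorem ka {N β : ℝ} (hJ : JS N β) {S : Sys} {γ : Type} {C : S.RV γ} (hC : Tame C)
    {l : S.RV Ln} {t : S.RV ℝ} {n s m : ℕ → ℕ} (hP : Par S n s m) (hl : LnA l) (ht : T01 t)
    {W : S.BX} (hW : SubA (tubes m (bl s l t)) W) :
    S.h (Sys.pr (tbs n l) C) + S.hc (dg s t) (Sys.pr (tbs n l) C) + S.nu m ≤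
      S.mi (Sys.pr W.lab (Sys.pr (pqs s (pt l t)) C))
        (Sys.pr (tbs m (bl s l t)) (Sys.pr (pqs s (pt l t)) C)) one +
      (3 * S.nu m - S.av W.sz) +
      (β * S.nu n + S.exc (tubes n l) C +
        N * (S.nu s - S.hc (dg s t) (Sys.pr (tbs n l) C))) := by
  obtain ⟨S₁, e₁, u, hu, hu'⟩ := exists_unif S m
  have hP₁ : Par S₁ n s m := hP.ext e₁
  set l₁ := e₁.pull l with hl₁d
  set t₁ := e₁.pull t with ht₁d
  set C₁ := e₁.pull C with hC₁d
  have hl₁ : LnA l₁ := ext_lnA e₁ hl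
  have ht₁ : T01 t₁ := ext_t01 e₁ ht
  set t' : S₁.RV ℝ := fun i ω => nt (m i) (n i) (cl (s i) (t₁ i ω)) (u i ω) with ht'd
  have hnt : S₁.Ae fun i ω => 0 ≤ t' i ω ∧ t' i ω ≤ 1 ∧
      |t' i ω - t₁ i ω| ≤ 2 * (1 / 2 : ℝ) ^ s i := by
    filter_upwards [ht₁] with i hi ω hω
    exact nt_facts (hP.add i) (hi ω hω).1 (hi ω hω).2 (hu i ω).1 (hu i ω).2
  have ht' : T01 t' := by
    filter_upwards [hnt] with i hi ω hω
    exact ⟨(hi ω hω).1, (hi ω hω).2.1⟩
  have hnear : S₁.Ae fun i ω => |t' i ω - t₁ i ω| ≤ 2 * (1 / 2 : ℝ) ^ s i := by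
    filter_upwards [hnt] with i hi ω hω
    exact (hi ω hω).2.2
  -- the variables
  set T := tbs n l₁ with hT
  set Z := pqs n (pt l₁ t') with hZ
  set Q := pqs s (pt l₁ t₁) with hQ
  set B := tbs m (bl s l₁ t₁) with hB
  set G : S₁.RV Lab := fun i ω => (W i).lab (e₁.π i ω) with hG
  have tT : Tame T := tame_tbs hP₁.bd hl₁
  have tZ : Tame Z := tame_pqs hP₁.bd hl₁ ht'
  have tQ : Tame Q := tame_pqs hP₁.bds hl₁ ht₁
  have tC : Tame C₁ := e₁.tame hC
  have tB : Tame B := tame_tbs hP₁.bdm (bl_ok hl₁)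
  have hWA : BxA W := bxA_of_sub (tubes_bxA hP.bdm (bl_ok hl)) hW
  have tG : Tame G := e₁.tame (X := BX.lab W) hWA.tame
  have tu : Tame u := tame_digits hP₁.bdm hu
  -- time
  have k1 : S₁.hc (dg n t') (Sys.pr T C₁) = S.hc (dg s t) (Sys.pr (tbs n l) C) + S.nu m :=
    hc_newtime (Y := Sys.pr (tbs n l) C) hP ht e₁ hu hu'
  have k1' : S₁.hc Z (Sys.pr T C₁) = S₁.hc (dg n t') (Sys.pr T C₁) := by
    refine hc_eq_of_zero tZ (t01_tame ht' hP₁.bd) ?_ ?_
    · refine hc_zero_mono tZ (zero_pt hP₁.bd hl₁ ht') (Eventually.of_forall fun _ _ _ _ _ e => ?_)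
      simp only [pr_apply, Prod.mk.injEq] at e ⊢
      exact ⟨e.1, e.2.1⟩
    · exact hc_fn (Eventually.of_forall fun _ _ _ _ _ e => by
        simp only [pr_apply, Prod.mk.injEq] at e
        exact congrArg Prod.fst e.1)
  -- the inequality with price `N`
  have k2 : S₁.hc T (Sys.pr Z C₁) ≤ β * S.nu n + S.exc (tubes n l) C +
      N * (S.nu n - S₁.hc Z (Sys.pr T C₁)) := by
    obtain ⟨cb, hcb⟩ := hP₁.bd
    have a1 := hJ S₁ γ C₁ l₁ (pt l₁ t') n ⟨cb, hcb⟩ hl₁ (by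
      refine ⟨0, ?_⟩
      filter_upwards [ht'] with i hi ω hω
      refine ⟨(hi ω hω).1, (hi ω hω).2, ?_, ?_⟩
      · show |co 0 (fun i_1 => pos (l₁ i ω) (t' i ω) i_1 - pos (l₁ i ω) (t' i ω) i_1) 0| ≤ _
        rw [co_sub, sub_self, abs_zero, zero_mul]
      · show |co 0 (fun i_1 => pos (l₁ i ω) (t' i ω) i_1 - pos (l₁ i ω) (t' i ω) i_1) 1| ≤ _
        rw [co_sub, sub_self, abs_zero, zero_mul])
    have a2 : S₁.exc (tubes n l₁) C₁ = S.exc (tubes n l) C := exc_ext e₁ C (tubes n l)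
    rw [a2, nu_ext e₁] at a1
    exact a1
  -- counting
  have hWS : SubA (tubes m (bl s l₁ t₁)) (e₁.pullB W) := by
    obtain ⟨c, hc⟩ := hW
    exact ⟨c, e₁.ae hc⟩
  have k3 := count hP₁ hl₁ ht₁ ht' hnear hWS
  have k3' : S₁.hc Z (Sys.pr G Q) ≤ 3 * S.nu m - S.av W.sz := by
    have a1 : S₁.av (BX.sz (e₁.pullB W)) = S.av W.sz := e₁.av W.sz
    rw [a1, nu_ext e₁] at k3
    exact k3
  -- Shannon
  have s1 : S₁.h (Sys.pr T C₁) + S₁.hc Z (Sys.pr T C₁) =
      S₁.h (Sys.pr Z C₁) + S₁.hc T (Sys.pr Z C₁) := by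
    have a1 := h_swap (tT.pr tC) (tZ.pr tC)
    have a2 : S₁.hc (Sys.pr Z C₁) (Sys.pr T C₁) = S₁.hc Z (Sys.pr T C₁) :=
      hc_congr (Eventually.of_forall fun _ _ _ _ _ e => by
          simp only [pr_apply, Prod.mk.injEq] at e ⊢
          exact ⟨e.1, e.2.2⟩)
        (Eventually.of_forall fun _ _ _ _ _ e => by
          simp only [pr_apply, Prod.mk.injEq] at e
          exact e.1.1)
        (Eventually.of_forall fun _ _ _ _ _ e => e) (Eventually.of_forall fun _ _ _ _ _ e => e)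
    have a3 : S₁.hc (Sys.pr T C₁) (Sys.pr Z C₁) = S₁.hc T (Sys.pr Z C₁) :=
      hc_congr (Eventually.of_forall fun _ _ _ _ _ e => by
          simp only [pr_apply, Prod.mk.injEq] at e ⊢
          exact ⟨e.1, e.2.2⟩)
        (Eventually.of_forall fun _ _ _ _ _ e => by
          simp only [pr_apply, Prod.mk.injEq] at e
          exact e.1.1)
        (Eventually.of_forall fun _ _ _ _ _ e => e) (Eventually.of_forall fun _ _ _ _ _ e => e)
    rw [a2, a3] at a1
    exact a1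
  set Wt := Sys.pr G (Sys.pr Q C₁) with hWt
  set σ := Sys.pr B (Sys.pr Q C₁) with hσ
  have tWt : Tame Wt := tG.pr (tQ.pr tC)
  have tσ : Tame σ := tB.pr (tQ.pr tC)
  have s2 : S₁.h (Sys.pr Z C₁) + S₁.hc Wt (Sys.pr Z C₁) = S₁.h Wt + S₁.hc (Sys.pr Z C₁) Wt :=
    h_swap (tZ.pr tC) tWt
  have s3 : S₁.hc (Sys.pr Z C₁) Wt ≤ 3 * S.nu m - S.av W.sz := by
    have a1 : S₁.hc (Sys.pr Z C₁) Wt = S₁.hc Z Wt :=
      hc_congr (Eventually.of_forall fun _ _ _ _ _ e => by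
          simp only [pr_apply, Prod.mk.injEq, hWt] at e ⊢
          exact ⟨e.1, e.2.2.2⟩)
        (Eventually.of_forall fun _ _ _ _ _ e => by
          simp only [pr_apply, Prod.mk.injEq] at e
          exact e.1.1)
        (Eventually.of_forall fun _ _ _ _ _ e => e) (Eventually.of_forall fun _ _ _ _ _ e => e)
    rw [a1]
    refine le_trans ?_ k3'
    exact hc_mono_right tZ (Eventually.of_forall fun _ _ _ _ _ e => by
      simp only [pr_apply, Prod.mk.injEq, hWt] at e ⊢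
      exact ⟨e.1, e.2.1⟩)
  -- `W` is independent of the new digits given `σ`
  have s4 : S₁.hc Wt σ ≤ S₁.hc Wt (Sys.pr Z C₁) := by
    have a1 : S₁.hc Wt (Sys.pr u σ) = S₁.hc Wt σ := by
      have b1 := mi_comm tWt tu σ
      unfold mi at b1
      have b2 : S₁.hc u σ = S.nu m :=
        hu' _ (Sys.pr (tbs m (bl s l t)) (Sys.pr (pqs s (pt l t)) C))
      have b3 : S₁.hc u (Sys.pr Wt σ) = S.nu m :=
        hu' _ (Sys.pr (Sys.pr W.lab (Sys.pr (pqs s (pt l t)) C))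
          (Sys.pr (tbs m (bl s l t)) (Sys.pr (pqs s (pt l t)) C)))
      linarith
    have a2 : S₁.hc (Sys.pr Z C₁) (Sys.pr u σ) = 0 := by
      refine hc_zero_pair tZ tC ?_ ?_
      · refine hc_zero_mono tZ (zero_fine hP₁ hl₁ ht₁ ht' hnear)
          (Eventually.of_forall fun _ _ _ _ _ e => ?_)
        simp only [pr_apply, Prod.mk.injEq, hσ] at e ⊢
        exact ⟨e.1, e.2.1, e.2.2.1⟩
      · exact hc_fn (Eventually.of_forall fun _ _ _ _ _ e => by
          simp only [pr_apply, Prod.mk.injEq, hσ] at e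
          exact e.2.2.2)
    have a3 : S₁.hc Wt (Sys.pr (Sys.pr Z C₁) (Sys.pr u σ)) = S₁.hc Wt (Sys.pr u σ) :=
      hc_cond_zero tWt (tZ.pr tC) a2
    have a4 : S₁.hc Wt (Sys.pr (Sys.pr Z C₁) (Sys.pr u σ)) ≤ S₁.hc Wt (Sys.pr Z C₁) :=
      hc_mono_right tWt (Eventually.of_forall fun _ _ _ _ _ e => congrArg Prod.fst e)
    linarith
  -- back to `S`
  have r1 : S₁.h (Sys.pr T C₁) = S.h (Sys.pr (tbs n l) C) := e₁.h (Sys.pr (tbs n l) C)
  have r2 : S₁.h Wt = S.h (Sys.pr W.lab (Sys.pr (pqs s (pt l t)) C)) :=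
    e₁.h (Sys.pr W.lab (Sys.pr (pqs s (pt l t)) C))
  have r3 : S₁.hc Wt σ = S.hc (Sys.pr W.lab (Sys.pr (pqs s (pt l t)) C))
      (Sys.pr (tbs m (bl s l t)) (Sys.pr (pqs s (pt l t)) C)) :=
    e₁.hc (Sys.pr W.lab (Sys.pr (pqs s (pt l t)) C))
      (Sys.pr (tbs m (bl s l t)) (Sys.pr (pqs s (pt l t)) C))
  have r4 := nu_add hP
  rw [k1', k1] at k2 s1
  have r5 : S.mi (Sys.pr W.lab (Sys.pr (pqs s (pt l t)) C))
      (Sys.pr (tbs m (bl s l t)) (Sys.pr (pqs s (pt l t)) C)) one =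
      S.h (Sys.pr W.lab (Sys.pr (pqs s (pt l t)) C)) -
      S.hc (Sys.pr W.lab (Sys.pr (pqs s (pt l t)) C))
        (Sys.pr (tbs m (bl s l t)) (Sys.pr (pqs s (pt l t)) C)) := by
    unfold mi
    rw [hc_pr_one]
    rfl
  rw [r5, ← r2, ← r3]
  rw [r1] at s1
  have r6 : N * (S.nu n - (S.hc (dg s t) (Sys.pr (tbs n l) C) + S.nu m)) =
      N * (S.nu s - S.hc (dg s t) (Sys.pr (tbs n l) C)) := by
    rw [← r4]
    ring
  rw [r6] at k2
  linarith

end Vale.Agent.P122.H265
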