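import Vale.Agent.P122.H265.Zero
import Vale.Agent.P122.H265.E7

/-!
# P122 / H265 : the step (F) on systems of flags (helper265)

`stepF` : from E4, for every box `W` around the tube of level `i`.  `stepA` : the box is at least as thick as the
tubes of level `j`.
-/

set_option autoImplicit false

namespace Vale.Agent.P122.H265

open Filter Topology Finset Vale.Agent.P127 Vale.Agent.P127.Stk Vale.Agent.P127.U Vale.Agent.P127.U.Sys Vale.Agent.P122.C2
  Vale.Agent.P122.E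

variable {K : ℕ} (F : Flg K)

theorem tame_ball {c : ℕ} (tN : Tame (F.N c)) : Tame (F.ball c) :=
  tN.mono (Eventually.of_forall fun k ω ω' _ _ e => by
    show F.ball c k ω = F.ball c k ω'
    unfold Flg.ball
    rw [e])

theorem fn_sig_node (c d : ℕ) : Sys.Fn (F.sig c d) (F.N c) :=
  Eventually.of_forall fun k ω ω' _ _ e => by
    show F.sig c d k ω = F.sig c d k ω'
    unfold Flg.sig
    rw [e]

theorem tame_sig {c : ℕ} (d : ℕ) (tN : Tame (F.N c)) : Tame (F.sig c d) := tN.mono (fn_sig_node F c d)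

/-- **(F)** for systems of flags -/
theorem stepF (h4 : E4) (hK : 1 ≤ K) {i j : ℕ} (h1 : 1 ≤ i) (hij : i ≤ j) (hj2 : j ≤ 2 * i) (hjK : j ≤ K)
    (tN : Tame (F.N i)) {W : F.S.BX} (hW : SubA (tubes (F.m i) (F.ln i)) W) :
    F.S.hc (F.N j) (one (S := F.S)) + 4 * j / K - F.exc j ≤
      F.S.hc (F.N i) (one (S := F.S)) + 4 * i / K - F.S.val (tubes (F.m i) (F.ln i)) W (F.ball i) +
        3 * F.D i j + (F.S.av W.sz - F.S.av (BX.sz (fat (F.m (2 * i - j)) W))) -
        (F.S.hc W.lab (F.sig i j) - F.S.hc W.lab (F.N i)) := by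
  set q := 2 * i - j with hq
  have hiK := hij.trans hjK
  have hln := lnA_ln F i hiK
  have tball := tame_ball F tN
  have tsig := tame_sig F j tN
  have tq : Tame (tbs (F.m q) (F.ln i)) := Fi.tame_tbs (bd_m F hK q) hln
  have ti : Tame (tbs (F.m i) (F.ln i)) := Fi.tame_tbs (bd_m F hK i) hln
  have hmq : ∀ a, F.m q a ≤ F.m i a := fun a => Nat.mul_le_mul_right _ (by omega)
  have hWA : BxA W := bxA_of_sub (Fi.tubes_bxA (bd_m F hK i) hln) hW
  have hfs : SubA (tubes (F.m q) (F.ln i)) (fat (F.m q) W) := fat_sub hW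
  have hFA : BxA (fat (F.m q) W) := bxA_of_sub (Fi.tubes_bxA (bd_m F hK q) hln) hfs
  have a1 := h4 F i j hK h1 hij hj2 hjK F.S (Ext.refl F.S) (fat (F.m q) W) hfs
  have a2 := fat_ineq (m := F.m q) (bd_m F hK i) hmq hln tball hW
  set P := Sys.pr (tbs (F.m q) (F.ln i)) (F.ball i) with hP
  have tP : Tame P := tq.pr tball
  have z1 : F.S.hc P (F.sig i j) = 0 := zero_lab_sig F hK hij hj2 hiK tN
  have z2 : F.S.hc (F.sig i j) P = 0 := zero_sig_lab F hij hj2 hiK
  -- the information of the fat box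
  have b1 : F.S.mi (Sys.pr (BX.lab (fat (F.m q) W)) (F.ball i)) P one =
      F.S.hc (F.sig i j) (one (S := F.S)) -
        F.S.hc (F.sig i j) (Sys.pr (BX.lab (fat (F.m q) W)) (F.ball i)) := by
    rw [mi_comm (hFA.tame.pr tball) tP]
    unfold Sys.mi
    rw [Fi.hc_pr_one]
    have e1 : F.S.hc P (one (S := F.S)) = F.S.hc (F.sig i j) (one (S := F.S)) := by
      refine Fi.hc_eq_of_zero tP tsig ?_ ?_
      · exact Fi.hc_zero_mono tP z1 (Eventually.of_forall fun _ _ _ _ _ e => congrArg Prod.fst e)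
      · exact Fi.hc_zero_mono tsig z2 (Eventually.of_forall fun _ _ _ _ _ e => congrArg Prod.fst e)
    have e2 : F.S.hc P (Sys.pr (BX.lab (fat (F.m q) W)) (F.ball i)) =
        F.S.hc (F.sig i j) (Sys.pr (BX.lab (fat (F.m q) W)) (F.ball i)) := by
      refine Fi.hc_eq_of_zero tP tsig ?_ ?_
      · exact Fi.hc_zero_mono tP z1 (Eventually.of_forall fun _ _ _ _ _ e => congrArg Prod.fst e)
      · exact Fi.hc_zero_mono tsig z2 (Eventually.of_forall fun _ _ _ _ _ e => congrArg Prod.fst e)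
    rw [e1, e2]
  have b2 : F.S.hc W.lab P = F.S.hc W.lab (F.sig i j) :=
    hc_cond_zero' (Y := tbs (F.m i) (F.ln i)) hWA.tame tP tsig z1 z2
  have b3 : F.S.hc W.lab (Sys.pr (tbs (F.m i) (F.ln i)) (F.ball i)) = F.S.hc W.lab (F.N i) :=
    hc_cond_zero' (Y := tbs (F.m i) (F.ln i)) hWA.tame (ti.pr tball) tN (hc_fn (fn_lab_node F i)) (zero_node_lab F hiK)
  have b4 : F.S.h (Sys.pr (tbs (F.m i) (F.ln i)) (F.ball i)) = F.S.hc (F.N i) (one (S := F.S)) := by
    refine Fi.hc_eq_of_zero (ti.pr tball) tN ?_ ?_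
    · exact hc_fn (by
        filter_upwards [fn_lab_node F i] with a ha ω ω' p p' e
        exact ha ω ω' p p' (congrArg Prod.fst e))
    · exact Fi.hc_zero_mono tN (zero_node_lab F hiK)
        (Eventually.of_forall fun _ _ _ _ _ e => congrArg Prod.fst e)
  rw [b1, b2, b3, b4, nu_m F hK] at a2
  have e1 : F.S.hc ((Ext.refl F.S).pull (F.sig i j))
      (Sys.pr (BX.lab (fat (F.m q) W)) ((Ext.refl F.S).pull (F.ball i))) =
      F.S.hc (F.sig i j) (Sys.pr (BX.lab (fat (F.m q) W)) (F.ball i)) := rfl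
  rw [e1] at a1
  have e2 : 6 * (i : ℝ) / K = 4 * (i : ℝ) / K + 2 * ((i : ℝ) / K) := by ring
  linarith

/-- **(A)** the box is at least as thick as the tubes of level `j` -/
theorem stepA (h4 : E4) (hK : 1 ≤ K) {i j : ℕ} (h1 : 1 ≤ i) (hij : i ≤ j) (hj2 : j ≤ 2 * i) (hjK : j ≤ K)
    (tN : Tame (F.N i)) {W : F.S.BX} (hW : SubA (tubes (F.m i) (F.ln i)) W)
    (hf : F.S.Ae fun a ω => (W a).j ω ≤ F.m (2 * i - j) a) :
    F.S.hc (F.N j) (one (S := F.S)) + 4 * j / K - F.exc j ≤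
      F.S.hc (F.N i) (one (S := F.S)) + 4 * i / K - F.S.val (tubes (F.m i) (F.ln i)) W (F.ball i) +
        3 * F.D i j := by
  have hln := lnA_ln F i (hij.trans hjK)
  have hWA : BxA W := bxA_of_sub (Fi.tubes_bxA (bd_m F hK i) hln) hW
  have a1 := stepF F h4 hK h1 hij hj2 hjK tN hW
  have a2 : F.S.av (BX.sz (fat (F.m (2 * i - j)) W)) = F.S.av W.sz := by
    refine av_fat ?_
    filter_upwards [hf, hWA.ok] with a h2 h3 ω hω
    exact ⟨(h3 ω hω).2.2.trans (h2 ω hω), h2 ω hω⟩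
  have a3 : F.S.hc W.lab (F.N i) ≤ F.S.hc W.lab (F.sig i j) :=
    hc_mono_right hWA.tame (fn_sig_node F i j)
  linarith

end Vale.Agent.P122.H265
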