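import Vale.Agent.P122.H265.Sig
import Vale.Agent.P122.H655.E3

/-!
# P122 / H265 : the piece `sig c d` and the label of precision `2 c - d` in the ball `c` (helper265)
-/

set_option autoImplicit false

namespace Vale.Agent.P122.H265

open Filter Topology Finset Vale.Agent.P127 Vale.Agent.P127.Stk Vale.Agent.P127.U Vale.Agent.P127.U.Sys Vale.Agent.P122.C2
  Vale.Agent.P122.E Vale.Agent.P122.H474

/-- digits of the fractional part -/
theorem dig_fract (o : ℤ) {r q p : ℕ} (h : r + q = p) :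
    fl1 q (Int.fract ((o : ℝ) / 2 ^ p)) = o / 2 ^ r - 2 ^ q * (o / 2 ^ p) := by
  have h1 : ⌊(o : ℝ) / 2 ^ p⌋ = o / 2 ^ p := by
    have e : (2 : ℝ) ^ p = (((2 ^ p : ℕ) : ℤ) : ℝ) := by push_cast; rfl
    rw [e, Int.cast_natCast, Int.floor_div_natCast, Int.floor_intCast]
    push_cast
    rfl
  have h2 : ⌊(o : ℝ) / 2 ^ r⌋ = o / 2 ^ r := by
    have e : (2 : ℝ) ^ r = (((2 ^ r : ℕ) : ℤ) : ℝ) := by push_cast; rfl
    rw [e, Int.cast_natCast, Int.floor_div_natCast, Int.floor_intCast]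
    push_cast
    rfl
  unfold fl1
  rw [Int.fract, h1]
  have e1 : (2:ℝ) ^ q * ((o : ℝ) / 2 ^ p - ((o / 2 ^ p : ℤ) : ℝ)) =
      (o : ℝ) / 2 ^ r - ((2 ^ q * (o / 2 ^ p) : ℤ) : ℝ) := by
    have e2 : (2:ℝ) ^ p = 2 ^ r * 2 ^ q := by rw [← pow_add, h]
    rw [e2]
    push_cast
    rw [mul_sub]
    congr 1
    field_simp
  rw [e1, Int.floor_sub_intCast, h2]

/-- a node known up to `O(1)` caps and offsets -/
theorem zero_nd' {S : Sys} {γ : Type*} (X : S.RV Nd) (Z : S.RV γ) (B : ℕ)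
    (h : ∀ᶠ i in (uf : Filter ℕ), ∀ ω ω', 0 < (S.P i).w ω → 0 < (S.P i).w ω' → Z i ω' = Z i ω →
      (∀ k, |(X i ω').τ k - (X i ω).τ k| ≤ B) ∧ (X i ω').T = (X i ω).T ∧ (X i ω').o = (X i ω).o) :
    S.hc X Z = 0 := by
  classical
  refine hc_zero_of_le (Real.log (((2 * B + 1) ^ 2 : ℕ) : ℝ)) ?_
  filter_upwards [h] with i hi
  refine Stk.hc_le_log (S.P i) (X i) (Z i) _ fun ω hω => ?_
  refine ⟨(Fintype.piFinset fun k => Finset.Icc ((X i ω).τ k - B) ((X i ω).τ k + B)).image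
    fun o => (⟨o, (X i ω).o, (X i ω).T⟩ : Nd), ?_, ?_⟩
  · refine Finset.card_image_le.trans ?_
    rw [Fintype.card_piFinset]
    have h1 : ∀ k : Fin 2, (Finset.Icc ((X i ω).τ k - (B : ℤ)) ((X i ω).τ k + B)).card = 2 * B + 1 := by
      intro k
      rw [Int.card_Icc]
      omega
    rw [Finset.prod_congr rfl fun k _ => h1 k]
    simp
  · intro ω' hω' e
    obtain ⟨h1, h2, h3⟩ := hi ω ω' hω hω' e
    rw [Finset.mem_image]
    refine ⟨(X i ω').τ, ?_, ?_⟩
    · rw [Fintype.mem_piFinset]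
      intro k
      have := abs_le.1 (h1 k)
      rw [Finset.mem_Icc]
      constructor <;> linarith [this.1, this.2]
    · rw [← h3, ← h2]

variable {K : ℕ} (F : Flg K)

/-- the slope of level `c` is near the slope of level `q ≤ c` -/
theorem slope_near {q c : ℕ} (hqc : q ≤ c) (hc : c ≤ K) {i : ℕ} {ω : F.S.Ω i} (hω : 0 < (F.S.P i).w ω)
    (k : Fin 2) : |F.s i q (F.N q i ω).τ k - F.s i c (F.N c i ω).τ k| ≤ F.C * K / 2 ^ (q * F.n i) := by
  refine ((chn F i ω hω).slope (F.slp i) hqc hc k).trans ?_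
  have hC := Chn.C_nonneg (F.slp i)
  have h1 : (c : ℝ) ≤ K := by exact_mod_cast hc
  have h2 : (0:ℝ) ≤ q := Nat.cast_nonneg _
  refine div_le_div_of_nonneg_right ?_ (by positivity)
  exact mul_le_mul_of_nonneg_left (by linarith) hC

/-- the label of precision `2 c - d` and the ball are a function of the piece `sig c d` -/
theorem zero_lab_sig (hK : 1 ≤ K) {c d : ℕ} (hcd : c ≤ d) (hd2 : d ≤ 2 * c) (hcK : c ≤ K)
    (tN : Tame (F.N c)) :
    F.S.hc (Sys.pr (tbs (F.m (2 * c - d)) (F.ln c)) (F.ball c)) (F.sig c d) = 0 := by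
  set q := 2 * c - d with hq
  obtain ⟨B, hB⟩ := exists_nat_ge (2 * (F.C * K))
  have hbd : ∃ r : ℝ, ∀ᶠ i in (uf : Filter ℕ), (F.m q i : ℝ) ≤ r * F.S.L i := by
    refine ⟨q, Eventually.of_forall fun i => ?_⟩
    rw [F.L_eq i]
    show ((q * F.n i : ℕ) : ℝ) ≤ (q : ℝ) * ((K * F.n i : ℕ) : ℝ)
    have h : q * F.n i ≤ q * (K * F.n i) := Nat.mul_le_mul_left q (Nat.le_mul_of_pos_left _ hK)
    exact_mod_cast h
  have hln : LnA (F.ln c) := Eventually.of_forall fun i _ hω => H655.lnOk_ln F i hω c hcK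
  have tv : Tame (dgv (F.m q) (dir (F.ln c))) := Fi.tame_dirv hbd hln
  -- all but the slope is a function
  have hf : Sys.Fn (Sys.pr (tbs (F.m q) (F.ln c)) (F.ball c))
      (Sys.pr (dgv (F.m q) (dir (F.ln c))) (F.sig c d)) := by
    refine Eventually.of_forall fun i ω ω' _ _ e => ?_
    simp only [pr_apply, Prod.mk.injEq] at e
    obtain ⟨e1, e2⟩ := e
    have eo : ∀ k, (F.N c i ω).o k / 2 ^ ((d - c) * F.n i) = (F.N c i ω').o k / 2 ^ ((d - c) * F.n i) :=
      fun k => congrFun (congrArg Nd.o e2) k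
    have eT : (F.N c i ω).T = (F.N c i ω').T := (congrArg Nd.T e2 : (F.sig c d i ω).T = (F.sig c d i ω').T)
    have hrq : (d - c) * F.n i + q * F.n i = c * F.n i := by
      rw [← add_mul]
      congr 1
      omega
    have eb : ∀ k, (F.N c i ω).o k / 2 ^ (c * F.n i) = (F.N c i ω').o k / 2 ^ (c * F.n i) := by
      intro k
      rw [← hrq, pow_add, ← Int.ediv_ediv_of_nonneg (by positivity), ← Int.ediv_ediv_of_nonneg (by positivity), eo k]
    have ex : fl (F.m q i) (F.ln c i ω).1 = fl (F.m q i) (F.ln c i ω').1 := by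
      funext k
      have g1 := dig_fract ((F.N c i ω).o k) hrq
      have g2 := dig_fract ((F.N c i ω').o k) hrq
      show fl1 (q * F.n i) (Int.fract (((F.N c i ω).o k : ℝ) / 2 ^ (c * F.n i))) =
        fl1 (q * F.n i) (Int.fract (((F.N c i ω').o k : ℝ) / 2 ^ (c * F.n i)))
      rw [g1, g2, eo k, eb k]
    have ev : fl (F.m q i) (F.ln c i ω).2 = fl (F.m q i) (F.ln c i ω').2 := e1
    refine Prod.ext (Prod.ext ex ev) (Prod.ext eT ?_)
    funext k
    exact eb k
  have hz : F.S.hc (dgv (F.m q) (dir (F.ln c))) (F.sig c d) = 0 := by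
    refine Fi.hc_zero_fl (F.m q) B (dir (F.ln c)) _ (Eventually.of_forall fun i ω ω' hω hω' e k => ?_)
    have hτ : (F.N q i ω').τ = (F.N q i ω).τ := by
      funext k
      have h1 := (chn F i ω hω).tau_eq (c := q) (d := c) (by omega) hcK k
      have h2 := (chn F i ω' hω').tau_eq (c := q) (d := c) (by omega) hcK k
      have h3 : c - q = d - c := by omega
      rw [h3] at h1 h2
      rw [h1, h2]
      exact congrFun (congrArg Nd.τ e) k
    have h1 := slope_near F (q := q) (c := c) (by omega) hcK hω k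
    have h2 := slope_near F (q := q) (c := c) (by omega) hcK hω' k
    rw [hτ] at h2
    show |F.s i c (F.N c i ω').τ k - F.s i c (F.N c i ω).τ k| ≤ (B : ℝ) * (1 / 2) ^ (q * F.n i)
    have h3 := abs_sub_le (F.s i c (F.N c i ω').τ k) (F.s i q (F.N q i ω).τ k) (F.s i c (F.N c i ω).τ k)
    rw [abs_sub_comm] at h2
    have h4 : F.C * K / 2 ^ (q * F.n i) + F.C * K / 2 ^ (q * F.n i) ≤ (B : ℝ) * (1 / 2) ^ (q * F.n i) := by
      rw [div_pow, one_pow, mul_one_div, ← add_div]
      refine div_le_div_of_nonneg_right ?_ (by positivity)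
      linarith
    linarith
  have tsig : Tame (F.sig c d) := tN.mono (Eventually.of_forall fun k ω ω' _ _ e => by
    show F.sig c d k ω = F.sig c d k ω'
    unfold Flg.sig
    rw [e])
  have tball : Tame (F.ball c) := tN.mono (Eventually.of_forall fun k ω ω' _ _ e => by
    show F.ball c k ω = F.ball c k ω'
    unfold Flg.ball
    rw [e])
  refine Fi.hc_zero_left ((Fi.tame_tbs hbd hln).pr tball) (tv.pr tsig) ?_ hf
  refine Fi.hc_zero_pair tv tsig hz (hc_fn (Eventually.of_forall fun _ _ _ _ _ e => e))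

/-- the piece `sig c d` is a function of the label of precision `2 c - d` and of the ball -/
theorem zero_sig_lab {c d : ℕ} (hcd : c ≤ d) (hd2 : d ≤ 2 * c) (hcK : c ≤ K) :
    F.S.hc (F.sig c d) (Sys.pr (tbs (F.m (2 * c - d)) (F.ln c)) (F.ball c)) = 0 := by
  set q := 2 * c - d with hq
  obtain ⟨B, hB⟩ := exists_nat_ge (F.C * (2 * (2 * (F.C * K) + 1) + 1))
  refine zero_nd' _ _ B (Eventually.of_forall fun i ω ω' hω hω' e => ?_)
  simp only [pr_apply, Prod.mk.injEq] at e
  obtain ⟨e1, e2⟩ := e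
  have eT : (F.N c i ω').T = (F.N c i ω).T := congrArg Prod.fst e2
  have eb : ∀ k, (F.N c i ω').o k / 2 ^ (c * F.n i) = (F.N c i ω).o k / 2 ^ (c * F.n i) :=
    fun k => congrFun (congrArg Prod.snd e2) k
  have hrq : (d - c) * F.n i + q * F.n i = c * F.n i := by
    rw [← add_mul]
    congr 1
    omega
  have ex : ∀ k, fl1 (q * F.n i) (Int.fract (((F.N c i ω').o k : ℝ) / 2 ^ (c * F.n i))) =
      fl1 (q * F.n i) (Int.fract (((F.N c i ω).o k : ℝ) / 2 ^ (c * F.n i))) :=
    fun k => congrFun (congrArg Prod.fst e1) k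
  have ev : ∀ k, |F.s i c (F.N c i ω').τ k - F.s i c (F.N c i ω).τ k| ≤ (1 / 2 : ℝ) ^ (q * F.n i) :=
    fun k => Fi.fl_close1 (congrArg Prod.snd e1) k
  have hc := chn F i ω hω
  have hc' := chn F i ω' hω'
  refine ⟨?_, eT, ?_⟩
  · have hC := Chn.C_nonneg (F.slp i)
    have hτ : ∀ k, (F.N q i ω).τ k = (F.N c i ω).τ k / 2 ^ ((d - c) * F.n i) := by
      intro k
      have h1 := hc.tau_eq (c := q) (d := c) (by omega) hcK k
      have h3 : c - q = d - c := by omega
      rw [h3] at h1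
      exact h1
    have hτ' : ∀ k, (F.N q i ω').τ k = (F.N c i ω').τ k / 2 ^ ((d - c) * F.n i) := by
      intro k
      have h1 := hc'.tau_eq (c := q) (d := c) (by omega) hcK k
      have h3 : c - q = d - c := by omega
      rw [h3] at h1
      exact h1
    have p0 : (0:ℝ) < 2 ^ (q * F.n i) := by positivity
    have hs : ∀ k, |F.s i q (F.N q i ω').τ k - F.s i q (F.N q i ω).τ k| ≤
        (2 * (F.C * K) + 1) / 2 ^ (q * F.n i) := by
      intro k
      have a1 := slope_near F (q := q) (c := c) (by omega) hcK hω k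
      have a2 := slope_near F (q := q) (c := c) (by omega) hcK hω' k
      have a3 := ev k
      rw [div_pow, one_pow] at a3
      have a4 : (2 * (F.C * K) + 1) / 2 ^ (q * F.n i) = F.C * K / 2 ^ (q * F.n i) +
          1 / 2 ^ (q * F.n i) + F.C * K / 2 ^ (q * F.n i) := by ring
      rw [a4]
      have e5 : F.s i q (F.N q i ω').τ k - F.s i q (F.N q i ω).τ k =
        (F.s i q (F.N q i ω').τ k - F.s i c (F.N c i ω').τ k) +
        (F.s i c (F.N c i ω').τ k - F.s i c (F.N c i ω).τ k) +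
        -(F.s i q (F.N q i ω).τ k - F.s i c (F.N c i ω).τ k) := by ring
      rw [e5]
      rw [← abs_neg] at a1
      exact Fi.abs_add3 a2 a3 a1
    have hco := (F.slp i).colip q (F.N q i ω').τ (F.N q i ω).τ (by omega) (hc'.cap q (by omega)) (hc.cap q (by omega))
    have h6 : 2 ^ (q * F.n i) * (|F.s i q (F.N q i ω').τ 0 - F.s i q (F.N q i ω).τ 0| +
        |F.s i q (F.N q i ω').τ 1 - F.s i q (F.N q i ω).τ 1|) ≤ 2 * (2 * (F.C * K) + 1) := by
      have b0 := hs 0
      have b1 := hs 1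
      rw [le_div_iff₀ p0] at b0 b1
      rw [mul_add]
      linarith
    have h7 : |((F.N q i ω').τ 0 : ℝ) - (F.N q i ω).τ 0| + |((F.N q i ω').τ 1 : ℝ) - (F.N q i ω).τ 1| ≤ B := by
      refine hco.trans (le_trans ?_ hB)
      exact mul_le_mul_of_nonneg_left (by linarith) hC
    intro k
    show |(F.N c i ω').τ k / 2 ^ ((d - c) * F.n i) - (F.N c i ω).τ k / 2 ^ ((d - c) * F.n i)| ≤ (B : ℤ)
    rw [← hτ k, ← hτ' k]
    have h8 : |((F.N q i ω').τ k : ℝ) - (F.N q i ω).τ k| ≤ B := by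
      have n0 := abs_nonneg (((F.N q i ω').τ 0 : ℝ) - (F.N q i ω).τ 0)
      have n1 := abs_nonneg (((F.N q i ω').τ 1 : ℝ) - (F.N q i ω).τ 1)
      fin_cases k
      · show |((F.N q i ω').τ 0 : ℝ) - (F.N q i ω).τ 0| ≤ B
        linarith
      · show |((F.N q i ω').τ 1 : ℝ) - (F.N q i ω).τ 1| ≤ B
        linarith
    exact_mod_cast h8
  · funext k
    show (F.N c i ω').o k / 2 ^ ((d - c) * F.n i) = (F.N c i ω).o k / 2 ^ ((d - c) * F.n i)
    have g1 := dig_fract ((F.N c i ω).o k) hrq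
    have g2 := dig_fract ((F.N c i ω').o k) hrq
    have g3 := ex k
    rw [g1, g2, eb k] at g3
    linarith

/-- `sig c c` is the node -/
theorem sig_self (c : ℕ) : F.sig c c = F.N c := by
  funext i ω
  unfold Flg.sig
  simp

/-- the node is a function of its label and of the ball -/
theorem zero_node_lab {c : ℕ} (hcK : c ≤ K) :
    F.S.hc (F.N c) (Sys.pr (tbs (F.m c) (F.ln c)) (F.ball c)) = 0 := by
  have h := zero_sig_lab F (le_refl c) (by omega) hcK
  rw [sig_self] at h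
  have e : 2 * c - c = c := by omega
  rw [e] at h
  exact h

/-- the label and the ball are functions of the node -/
theorem fn_lab_node (c : ℕ) : Sys.Fn (Sys.pr (tbs (F.m c) (F.ln c)) (F.ball c)) (F.N c) :=
  Eventually.of_forall fun i ω ω' _ _ e => by
    show (tb (F.m c i) (F.ln c i ω), F.ball c i ω) = (tb (F.m c i) (F.ln c i ω'), F.ball c i ω')
    unfold Flg.ln Flg.ball
    rw [e]

end Vale.Agent.P122.H265
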